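import Vale.Agent.P286EX.Hit
import Vale.Agent.P286EC.Gen
import Vale.Agent.P286EXB.Bar

/-!
# The Haar retraction of the generator and the Reynolds projector
-/

set_option linter.all false

namespace Vale.Agent.P286EX

open CategoryTheory Matrix TensorProduct Vale.Agent.P286 Vale.Agent.P286.St Vale.Agent.P286.H847
  Vale.Agent.P286E Vale.Agent.P286EG Vale.Agent.P286EK Vale.Agent.P286.H710

noncomputable section

namespace Un

section Gen

variable {A B M M' ι : Type} [CommRing A] [Algebra ℂ A] [CommRing B] [Algebra ℂ B]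
  [AddCommGroup M] [Module A M] [Module ℂ M] [IsScalarTower ℂ A M]
  [AddCommGroup M'] [Module B M'] [Module ℂ M'] [IsScalarTower ℂ B M']

/-- The map `b e' ↦ l(b) e`. -/
def dn (l : B →ₗ[ℂ] A) (e : Module.Basis ι A M) (e' : Module.Basis ι B M') : M' →ₗ[ℂ] M :=
  (e.repr.symm.toLinearMap.restrictScalars ℂ) ∘ₗ Finsupp.mapRange.linearMap l ∘ₗ
    (e'.repr.toLinearMap.restrictScalars ℂ)

theorem dn_e (l : B →ₗ[ℂ] A) (e : Module.Basis ι A M) (e' : Module.Basis ι B M') (b : B) (γ : ι) :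
    dn l e e' (b • e' γ) = l b • e γ := by
  change e.repr.symm (Finsupp.mapRange l (map_zero l) (e'.repr (b • e' γ))) = _
  rw [map_smul, e'.repr_self, Finsupp.smul_single, smul_eq_mul, mul_one, Finsupp.mapRange_single,
    e.repr_symm_single]

theorem bind (e : Module.Basis ι A M) {Q : M → Prop} (zero : Q 0) (gen : ∀ (a : A) γ, Q (a • e γ))
    (add : ∀ x y, Q x → Q y → Q (x + y)) (x : M) : Q x := by
  rw [← e.repr.symm_apply_apply x]
  induction e.repr x using Finsupp.induction_linear with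
  | zero => rwa [map_zero]
  | add f g hf hg => rw [map_add]; exact add _ _ hf hg
  | single γ a => rw [e.repr_symm_single]; exact gen a γ

theorem dn_t (l : B →ₗ[ℂ] A) (e : Module.Basis ι A M) (e' : Module.Basis ι B M') (φ : A → B)
    (hl : ∀ a b, l (φ a * b) = a * l b) (t : M →ₗ[ℂ] M') (ht : ∀ a x, t (a • x) = φ a • t x)
    (he : ∀ γ, t (e γ) = e' γ) (b : B) (q : M) : dn l e e' (b • t q) = l b • q := by
  induction q using bind e with
  | zero => simp
  | gen a γ => rw [ht, he, smul_smul, dn_e, mul_comm, hl, smul_smul, mul_comm]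
  | add x y hx hy => rw [map_add, smul_add, map_add, hx, hy, smul_add]

end Gen

theorem deg_of {M N : GD} (hM : DirectSum.IsInternal M.gr) (hN : DirectSum.IsInternal N.gr)
    (f : M.V →ₗ[ℂ] N.V)
    (h : ∀ Q : M.V → Prop, Q 0 → (∀ m, ∀ x ∈ M.gr m, f x ∈ N.gr m → Q x) →
      (∀ x y, Q x → Q y → Q (x + y)) → ∀ x, Q x) (m : ℤ) (x : M.V) (hx : x ∈ M.gr m) :
    f x ∈ N.gr m := by
  obtain ⟨P⟩ := Prj.nonempty hM
  obtain ⟨P'⟩ := Prj.nonempty hN
  have key : ∀ y, f (P.P m y) = P'.P m (f y) := h _ (by simp) (fun n y hy hf => by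
    by_cases e : n = m
    · subst e
      rw [P.eq _ _ hy, P'.eq _ _ hf]
    · rw [P.ne _ _ e _ hy, P'.ne _ _ e _ hf, map_zero]) fun x y hx hy => by
    simp only [map_add, hx, hy]
  rw [← P.eq m x hx, key]
  exact P'.mem m _

variable {I : Type} [SmallCategory I] {D : CD I} {G : Grp} {s : ℂ} (K : GK G)

/-- The integral over the group. -/
def hz0 (A : Type) [CommRing A] [Algebra ℂ A] : A ⊗[ℂ] K.O.R →ₗ[ℂ] A :=
  (TensorProduct.rid ℂ A).toLinearMap ∘ₗ K.haar.lTensor A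

theorem hz0_tmul {A : Type} [CommRing A] [Algebra ℂ A] (a : A) (f : K.O.R) :
    hz0 K A (a ⊗ₜ f) = K.haar f • a := rfl

theorem hz0_L {A : Type} [CommRing A] [Algebra ℂ A] (a : A) (b : A ⊗[ℂ] K.O.R) :
    hz0 K A (cL K A a * b) = a * hz0 K A b := by
  induction b using TensorProduct.induction_on with
  | zero => simp
  | tmul x f =>
    rw [Algebra.TensorProduct.includeLeft_apply, Algebra.TensorProduct.tmul_mul_tmul, one_mul,
      hz0_tmul, hz0_tmul, mul_smul_comm]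
  | add x y hx hy => rw [mul_add, map_add, hx, hy, map_add, mul_add]

theorem hz0_one {A : Type} [CommRing A] [Algebra ℂ A] : hz0 K A 1 = 1 := by
  rw [Algebra.TensorProduct.one_def, hz0_tmul, K.haar_one, one_smul]

theorem hz0_nat {A B : Type} [CommRing A] [Algebra ℂ A] [CommRing B] [Algebra ℂ B] (φ : A →ₐ[ℂ] B)
    (ψ : A ⊗[ℂ] K.O.R →ₐ[ℂ] B ⊗[ℂ] K.O.R) (h : Matrix (Fin G.N) (Fin G.N) B)
    (h1 : ∀ a, ψ (cL K A a) = cL K B (φ a))
    (h2 : (K.g.map (cR K A)).map ψ = h.map (cL K B) * K.g.map (cR K B)) (b : A ⊗[ℂ] K.O.R) :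
    hz0 K B (ψ b) = φ (hz0 K A b) := by
  induction b using TensorProduct.induction_on with
  | zero => simp
  | tmul a f =>
    have e : a ⊗ₜ[ℂ] f = cL K A a * cR K A f := by
      rw [Algebra.TensorProduct.includeLeft_apply, Algebra.TensorProduct.includeRight_apply,
        Algebra.TensorProduct.tmul_mul_tmul, mul_one, one_mul]
    have h3 : hz0 K B (ψ (cR K A f)) = algebraMap ℂ B (K.haar f) :=
      K.haar_l h (ψ.comp (cR K A)) h2 f
    rw [hz0_tmul, map_smul, e, map_mul, h1, hz0_L, h3, mul_comm, ← Algebra.smul_def]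
  | add x y hx hy => simp only [map_add, hx, hy]

/-- The integral over the group. -/
def hz (s : ℂ) (X : QO D) : RQ G s (cop K X) →ₗ[ℂ] RQ G s X := hz0 K X.A.R

/-- The homomorphism of an arrow. -/
abbrev qf {X Y : QO D} (u : Ar G s X Y) : RQ G s X →ₐ[ℂ] RQ G s Y := (QS D G s).f u

theorem hz_L (X : QO D) (a : RQ G s X) (b : RQ G s (cop K X)) :
    hz K s X (qf (inl K s X) a * b) = a * hz K s X b := hz0_L K a b

theorem hz_one (X : QO D) : hz K s X 1 = 1 := hz0_one (A := X.A.R) K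

theorem hz_nat {X Y : QO D} (u : Ar G s X Y) (b : RQ G s (cop K X)) :
    hz K s Y (qf (copM K u) b) = qf u (hz K s X b) :=
  hz0_nat K (QM.φ u) (QM.φ (copM K u)) (QM.h u).adjugate
    (fun a => AlgHom.congr_fun (congrArg QM.φ (inl_copM K u)) a)
    ((copM_cg K u).trans (congrArg (· * cg K Y) (adj_map _ _).symm)) b

variable {K}

theorem at_map (U : Rep K) {B C : Type} [CommRing B] [Algebra ℂ B] [CommRing C] [Algebra ℂ C]
    {h : Matrix (Fin G.N) (Fin G.N) B} (hh : G.Pt h) (f : B →ₐ[ℂ] C) :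
    (U.at h hh).map f = U.at (h.map f) (hh.map f) := by
  rw [Rep.at, Rep.at, ← K.comp_ev hh f]; rfl

theorem at_congr (U : Rep K) {B : Type} [CommRing B] [Algebra ℂ B]
    {h k : Matrix (Fin G.N) (Fin G.N) B} (e : h = k) (hh : G.Pt h) (hk : G.Pt k) :
    U.at h hh = U.at k hk := by subst e; rfl

theorem at_one (U : Rep K) {B : Type} [CommRing B] [Algebra ℂ B]
    {h : Matrix (Fin G.N) (Fin G.N) B} (hh : G.Pt h) (e : h = 1) : U.at h hh = 1 := by
  have h1 := at_map U (Grp.Pt.one G) (Algebra.ofId ℂ B)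
  rw [show U.at (1 : Matrix _ _ ℂ) (Grp.Pt.one G) = 1 from U.r_one, map_one'] at h1
  exact (at_congr U (e.trans (map_one' _).symm) _ _).trans h1.symm

theorem at_mul (U : Rep K) {B : Type} [CommRing B] [Algebra ℂ B]
    {h k : Matrix (Fin G.N) (Fin G.N) B} (hh : G.Pt h) (hk : G.Pt k) :
    U.at (h * k) (hh.mul hk) = U.at h hh * U.at k hk := U.r_mul hh hk

/-- The matrix of an arrow. -/
abbrev rr (U : Rep K) {X Y : QO D} (u : Ar G s X Y) : Matrix (Fin U.n) (Fin U.n) (RQ G s Y) :=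
  U.at (qh u) (qpt u)

/-- The inverse matrix of an arrow. -/
abbrev ri (U : Rep K) {X Y : QO D} (u : Ar G s X Y) : Matrix (Fin U.n) (Fin U.n) (RQ G s Y) :=
  U.at (qh u).adjugate (K.adj (qpt u))

theorem rr_ri (U : Rep K) {X Y : QO D} (u : Ar G s X Y) : rr U u * ri U u = 1 :=
  (at_mul U _ _).symm.trans (at_one U _ (pt_mul_adj (qpt u)))

theorem ri_rr (U : Rep K) {X Y : QO D} (u : Ar G s X Y) : ri U u * rr U u = 1 :=
  (at_mul U _ _).symm.trans (at_one U _ (pt_adj_mul (qpt u)))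

theorem ri_comp (U : Rep K) {X Y Z : QO D} (u : Ar G s X Y) (v : Ar G s Y Z) :
    ri U (u ≫ v) = (ri U u).map (qf v) * ri U v := by
  rw [at_map, ← at_mul]
  exact at_congr U ((adjugate_mul_distrib (qh v) ((qh u).map (qf v))).trans
    (congrArg (· * (qh v).adjugate) (adj_map (qf v) (qh u)).symm)) _ _

theorem ri_inl (U : Rep K) (X : QO D) : ri U (inl K s X) = 1 := at_one U _ adjugate_one

theorem ri_copM (U : Rep K) {X Y : QO D} (u : Ar G s X Y) :
    ri U (copM K u) = (ri U u).map (qf (inl K s Y)) := by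
  rw [at_map]
  exact at_congr U ((congrArg adjugate (copM_h K u)).trans (adj_map _ _).symm) _ _

theorem sum_one {B M : Type} [CommRing B] [AddCommGroup M] [Module B M] {n : ℕ} (x : Fin n → M)
    (l : Fin n) : ∑ k, (1 : Matrix (Fin n) (Fin n) B) k l • x k = x l := by
  rw [Finset.sum_eq_single l, Matrix.one_apply_eq, one_smul]
  · intro k _ h
    rw [Matrix.one_apply_ne h, zero_smul]
  · simp

theorem sum_mul' {B M : Type} [CommRing B] [AddCommGroup M] [Module B M] {n : ℕ}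
    (a b : Matrix (Fin n) (Fin n) B) (x : Fin n → M) (l : Fin n) :
    ∑ k, b k l • ∑ m, a m k • x m = ∑ m, (a * b) m l • x m := by
  simp only [Finset.smul_sum, smul_smul, Matrix.mul_apply, Finset.sum_smul]
  rw [Finset.sum_comm]
  exact Finset.sum_congr rfl fun m _ => Finset.sum_congr rfl fun k _ => by rw [mul_comm]

end Un

open Un

variable {I : Type} [SmallCategory I] {D : CD I} {G : Grp} {s : ℂ} {K : GK G} {xd : XD D}
  {U : Rep K} (P : PD K xd s U)

namespace PD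

/-- The sections. -/
abbrev uV (X : QO D) : Type := (P.P.K X).M.V

theorem ut_smul {X Y : QO D} (u : Ar G s X Y) (a : RQ G s X) (x : P.uV X) :
    (P.P.t u).f (a • x) = qf u a • (P.P.t u).f x := P.P.t_smul u a x

theorem ut_comp {X Y Z : QO D} (u : Ar G s X Y) (v : Ar G s Y Z) (x : P.uV X) :
    (P.P.t (u ≫ v)).f x = (P.P.t v).f ((P.P.t u).f x) := P.P.t_comp u v x

theorem ud_smul (X : QO D) (a : RQ G s X) (x : P.uV X) :
    (P.P.K X).M.d (a • x) = a • (P.P.K X).M.d x := (P.P.K X).d_smul a x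

theorem ugr_smul (X : QO D) {m : ℤ} (a : RQ G s X) {x : P.uV X} (h : x ∈ (P.P.K X).M.gr m) :
    a • x ∈ (P.P.K X).M.gr m := (P.P.K X).gr_smul m a x h

theorem ut_d {X Y : QO D} (u : Ar G s X Y) (x : P.uV X) :
    (P.P.t u).f ((P.P.K X).M.d x) = (P.P.K Y).M.d ((P.P.t u).f x) := (P.P.t u).comm x

theorem ucind (X : QO D) {Q : P.uV (cop K X) → Prop} (zero : Q 0)
    (gen : ∀ (b : RQ G s (cop K X)) γ, Q (b • (P.P.t (inl K s X)).f (P.e X γ)))
    (add : ∀ x y, Q x → Q y → Q (x + y)) (x : P.uV (cop K X)) : Q x :=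
  Un.bind (P.e (cop K X)) zero (fun b γ => P.t_one _ (fib_inl K X) rfl γ ▸ gen b γ) add x

/-- The Haar retraction, as a linear map. -/
def hl (X : QO D) : P.uV (cop K X) →ₗ[ℂ] P.uV X := dn (hz K s X) (P.e X) (P.e (cop K X))

theorem hl_t (X : QO D) (b : RQ G s (cop K X)) (q : P.uV X) :
    P.hl X (b • (P.P.t (inl K s X)).f q) = hz K s X b • q :=
  dn_t _ _ _ (qf (inl K s X)) (hz_L K X) _ (P.ut_smul _) (P.t_one _ (fib_inl K X) rfl) b q

/-- The Haar retraction. -/
def hs (X : QO D) : GD.Hom (P.P.K (cop K X)).M (P.P.K X).M where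
  f := P.hl X
  comm x := by
    induction x using P.ucind X with
    | zero => simp
    | gen b γ => rw [P.ud_smul, ← P.ut_d, P.hl_t, P.hl_t, P.ud_smul]
    | add x y hx hy => simp only [map_add, hx, hy]
  deg := deg_of (P.int _) (P.int _) _ fun Q h0 h1 h2 => P.ucind X h0 (fun b γ =>
    h1 _ _ (P.ugr_smul _ b ((P.P.t _).deg _ _ (P.e_gr X γ.1 γ.2))) (by
      rw [P.hl_t]; exact P.ugr_smul _ _ (P.e_gr X γ.1 γ.2))) h2

theorem hs_t (X : QO D) (b : RQ G s (cop K X)) (q : P.uV X) :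
    (P.hs X).f (b • (P.P.t (inl K s X)).f q) = hz K s X b • q := P.hl_t X b q

theorem hs_inl (X : QO D) (q : P.uV X) : (P.hs X).f ((P.P.t (inl K s X)).f q) = q := by
  have h := P.hs_t X 1 q
  rwa [one_smul, hz_one, one_smul] at h

theorem hs_smul (X : QO D) (a : RQ G s X) (x : P.uV (cop K X)) :
    (P.hs X).f (qf (inl K s X) a • x) = a • (P.hs X).f x := by
  induction x using P.ucind X with
  | zero => simp
  | gen b γ => rw [smul_smul, P.hs_t, P.hs_t, hz_L, smul_smul]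
  | add x y hx hy => simp only [smul_add, map_add, hx, hy]

theorem hs_nat {X Y : QO D} (u : Ar G s X Y) (x : P.uV (cop K X)) :
    (P.hs Y).f ((P.P.t (copM K u)).f x) = (P.P.t u).f ((P.hs X).f x) := by
  induction x using P.ucind X with
  | zero => simp
  | gen b γ => rw [P.ut_smul, ← P.ut_comp, inl_copM, P.ut_comp, P.hs_t, P.hs_t, hz_nat, P.ut_smul]
  | add x y hx hy => simp only [map_add, hx, hy]

theorem inl_ra (X : QO D) (a : (P.A.A X.i).R) (p : P.uV X) :
    (P.P.t (inl K s X)).f (P.ra X a p) = P.ra (cop K X) a ((P.P.t (inl K s X)).f p) :=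
  (P.ra_t _ a p).trans (congrArg (fun b => P.ra (cop K X) b _) (P.A.τ_id X.i a))

theorem inr_ra (X : QO D) (a : (P.A.A X.i).R) (p : P.uV (Zo xd X.i)) :
    (P.P.t (inr K xd s X)).f (P.ra (Zo xd X.i) a p) =
      P.ra (cop K X) a ((P.P.t (inr K xd s X)).f p) :=
  (P.ra_t (inr K xd s X) a p).trans (congrArg (fun b => P.ra (cop K X) b _) (P.A.τ_id X.i a))

theorem hs_ra (X : QO D) (a : (P.A.A X.i).R) (x : P.uV (cop K X)) :
    (P.hs X).f (P.ra (cop K X) a x) = P.ra X a ((P.hs X).f x) := by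
  induction x using P.ucind X with
  | zero => simp
  | gen b γ => rw [map_smul, ← P.inl_ra, P.hs_t, P.hs_t, map_smul]
  | add x y hx hy => simp only [map_add, hx, hy]

/-- The twisted transition maps. -/
def utw {X Y : QO D} (u : Ar G s X Y) (p : Fin U.n → P.uV X) (l : Fin U.n) : P.uV Y :=
  ∑ k, ri U u k l • (P.P.t u).f (p k)

theorem utw_comp {X Y Z : QO D} (u : Ar G s X Y) (v : Ar G s Y Z) (p : Fin U.n → P.uV X) :
    P.utw (u ≫ v) p = P.utw v (P.utw u p) := funext fun l => by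
  simp only [utw, map_sum, P.ut_smul, P.ut_comp]
  rw [ri_comp, ← sum_mul']
  rfl

theorem utw_inl (X : QO D) (p : Fin U.n → P.uV X) (l : Fin U.n) :
    P.utw (inl K s X) p l = (P.P.t (inl K s X)).f (p l) := by
  rw [utw, ri_inl, sum_one (fun k => (P.P.t (inl K s X)).f (p k))]

theorem hs_tw {X Y : QO D} (u : Ar G s X Y) (x : Fin U.n → P.uV (cop K X)) (l : Fin U.n) :
    (P.hs Y).f (P.utw (copM K u) x l) = P.utw u (fun k => (P.hs X).f (x k)) l := by
  simp only [utw, map_sum, ri_copM, Matrix.map_apply, P.hs_smul, P.hs_nat]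

theorem eqv_eq (i : I) (p : Fin U.n → P.uV (Zo xd i)) (k : Fin U.n) :
    eqv xd U P.P.fa i p k = (P.P.t (inr K xd s (Zo xd i))).f (p k) -
      ∑ l, rr U (inr K xd s (Zo xd i)) l k • (P.P.t (inl K s (Zo xd i))).f (p l) := rfl

theorem sum_eqv (i : I) (p : Fin U.n → P.uV (Zo xd i)) (l : Fin U.n) :
    ∑ k, ri U (inr K xd s (Zo xd i)) k l • eqv xd U P.P.fa i p k =
      P.utw (inr K xd s (Zo xd i)) p l - (P.P.t (inl K s (Zo xd i))).f (p l) := by
  simp only [eqv_eq, smul_sub, Finset.sum_sub_distrib]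
  rw [sum_mul', rr_ri, sum_one (fun k => (P.P.t (inl K s (Zo xd i))).f (p k))]
  rfl

theorem eqv_of (i : I) (p : Fin U.n → P.uV (Zo xd i))
    (h : ∀ l, P.utw (inr K xd s (Zo xd i)) p l = (P.P.t (inl K s (Zo xd i))).f (p l)) (k : Fin U.n) :
    eqv xd U P.P.fa i p k = 0 := by
  rw [eqv_eq, sub_eq_zero]
  simp only [← h, utw]
  rw [sum_mul', ri_rr, sum_one (fun k => (P.P.t (inr K xd s (Zo xd i))).f (p k))]

/-- The Reynolds operator. -/
def rey (i : I) (p : Fin U.n → P.uV (Zo xd i)) (l : Fin U.n) : P.uV (Zo xd i) :=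
  (P.hs (Zo xd i)).f (P.utw (inr K xd s (Zo xd i)) p l)

theorem rey_sub (i : I) (p : Fin U.n → P.uV (Zo xd i)) (l : Fin U.n) :
    P.rey i p l - p l = ∑ k, (P.hs (Zo xd i)).f
      (ri U (inr K xd s (Zo xd i)) k l • eqv xd U P.P.fa i p k) := by
  rw [← map_sum, sum_eqv, map_sub, hs_inl]
  rfl

theorem rey_of (i : I) (p : Fin U.n → P.uV (Zo xd i)) (h : ∀ k, eqv xd U P.P.fa i p k = 0) :
    P.rey i p = p := funext fun l => sub_eq_zero.1 (by
  rw [rey_sub]
  exact Finset.sum_eq_zero fun k _ => by rw [h, smul_zero, map_zero])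

theorem eqv_rey (i : I) (p : Fin U.n → P.uV (Zo xd i)) (k : Fin U.n) :
    eqv xd U P.P.fa i (P.rey i p) k = 0 := by
  refine P.eqv_of i _ (fun l => ?_) k
  have h1 := P.hs_tw (inr K xd s (Zo xd i)) (P.utw (inr K xd s (Zo xd i)) p) l
  have h2 := P.hs_tw (inl K s (Zo xd i)) (P.utw (inr K xd s (Zo xd i)) p) l
  rw [← P.utw_comp] at h1 h2
  have e : inr K xd s (Zo xd i) ≫ copM K (inr K xd s (Zo xd i)) =
      inr K xd s (Zo xd i) ≫ copM K (inl K s (Zo xd i)) :=
    (inr_copM K xd (inr K xd s (Zo xd i))).trans (inr_copM K xd (inl K s (Zo xd i))).symm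
  rw [e, h2, utw_inl] at h1
  exact h1.symm

/-- The generators. -/
abbrev uv (X : QO D) (k : Fin U.n) : P.uV X := P.e X (∅, 0, k, true)

theorem uv_gr (X : QO D) (k : Fin U.n) : P.uv X k ∈ (P.P.K X).M.gr 0 := by
  have h := P.e_gr X ∅ (0, k, true)
  simpa using h

theorem d_uv (X : QO D) (k : Fin U.n) : (P.P.K X).M.d (P.uv X k) = 0 := by
  have h := P.d_e1 X 0 k
  have h2 : {p | ∃ m' : Fin 4 →₀ ℕ, ∑ l, m' l + 2 ≤ ∑ l, (0 : Fin 4 →₀ ℕ) l ∧
      p = P.e X (∅, m', k, false)} = ∅ := Set.eq_empty_of_forall_notMem (by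
    rintro p ⟨m', hm, -⟩
    simp at hm)
  rw [h2, Submodule.span_empty, Submodule.mem_bot] at h
  simpa using h

theorem eqv_uv (i : I) (a : (P.A.A i).R) (k : Fin U.n) :
    eqv xd U P.P.fa i (fun k => P.ra (Zo xd i) a (P.uv _ k)) k = 0 := by
  rw [eqv_eq, P.inr_ra (Zo xd i), P.t_u, map_sum, sub_eq_zero]
  refine Finset.sum_congr rfl fun l _ => ?_
  rw [map_smul, P.inl_ra, P.t_one _ (fib_inl K _) rfl]

end PD

end

end Vale.Agent.P286EX
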