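import Vale.Agent.P286EXU.Ug
import Vale.Agent.P286EX.Gen1

/-!
# The unit
-/

set_option linter.all false

namespace Vale.Agent.P286EX

open CategoryTheory TensorProduct Vale.Agent.P286 Vale.Agent.P286.St Vale.Agent.P286.H847
  Vale.Agent.P286.H353 Vale.Agent.P286.H710 Vale.Agent.P286.H697 Vale.Agent.P286E
  Vale.Agent.P286EG
open Vale.Agent.P286EK (DGA DD DM mdc mh mo mz Bar UU DHom Res mnat ssz)

noncomputable section

universe u₁ v₁ u₂ v₂

variable {I : Type} [SmallCategory I] {D : CD I} {G : Grp} {s : ℂ} {K : GK G} {xd : XD D}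
  {U : Rep K}

namespace Un

variable {A : DD I} {S : GS (QS D G s)} (b : DGF (mdc A) (hgc S)) (N : Z0 (mdc A)) (i : I)

/-- A map from the bar resolution. -/
def zE (e : GD.Hom (Bar (A.A i).rm ((mo N).M i)) ((HG.fa (b.obj (mo N))).M (Zo xd i)).G) :
    GD.Hom ((mo ((Res A).z0.obj N)).M i).toGD ((ho (b.z0.obj N)).fa.M (Zo xd i)).G := e

theorem zE_hit
    (e : Fin U.n → GD.Hom (Bar (A.A i).rm ((mo N).M i)) ((HG.fa (b.obj (mo N))).M (Zo xd i)).G)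
    (h : Hit xd U (HG.fa (b.obj (mo N))) i _ e) :
    Hit xd U (ho (b.z0.obj N)).fa i _ fun k => zE b N i (e k) := h

end Un

theorem BD.piZ_unB {T : TSite} {S : GS T} {ix : T.C ⥤ I} {A : DD I} (B : BD S ix A)
    (σ : ∀ X, Sg (B.P.gau.F X)) (hσ : ∀ X p, (σ X).s p = ((B.ρ X).sgD (bT T X)).s p)
    (N : Z0 (mdc A)) (X : T.C) (z : ((mo ((Res A).z0.obj N)).M (ix.obj X)).V)
    (p : (B.P.K X).M.V) :
    (piZ (B.barD.z0.obj N) X).f ((B.unB σ hσ N X).f z (B.P.o1 X p)) =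
      ((B.ρ X).ra.flip p).rTensor (UU ((mo N).M (ix.obj X))).V z := B.pi_unB σ hσ N X z p

namespace PD

variable (P : PD K xd s U)

theorem xv_un {C : DGC.{u₁, v₁}} {E : DGC.{u₂, v₂}} {L : DGF C (mdc P.A)} {b : DGF C E}
    {g : DGF E (otc (QS D G s))} (f : P.xq.UN L b g) (N : Z0 C) (i : I) (k : Fin U.n)
    (x : ((mo (L.z0.obj N)).M i).V) :
    P.xv (g.z0.obj (b.z0.obj N)) i k ((mh ((f.un (ptQ s K xd)).app N) i).f x) =
      (f.u N (Zo xd i)).f x (P.o1 (Zo xd i) (P.uv (Zo xd i) k)) :=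
  LinearMap.congr_fun ((f.un_zero (ptQ s K xd) N i x).trans
    (congrArg (f.u N (Zo xd i)).f ((mo (L.z0.obj N)).ρ_id i x))) _

theorem xE_un {C : DGC.{u₁, v₁}} {L : DGF C (mdc P.A)} {b : DGF C (hgc (K.gs D s))}
    (f : P.xq.UN L b (gauD (K.gs D s))) (N : Z0 C) (i : I) (k : Fin U.n)
    (x : ((mo (L.z0.obj N)).M i).V) :
    (P.xE (b.z0.obj N) i k).f ((mh ((f.un (ptQ s K xd)).app N) i).f x) =
      (piZ (b.z0.obj N) (Zo xd i)).f
        ((f.u N (Zo xd i)).f x (P.o1 (Zo xd i) (P.uv (Zo xd i) k))) :=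
  (P.xE_eq (b.z0.obj N) i k _).trans
    (congrArg (piZ (b.z0.obj N) (Zo xd i)).f (P.xv_un f N i k x))

theorem σ_sgD (X : QO D) (p : (P.Q X).M.V) :
    (P.σ X).s p = ((P.bd.ρ X).sgD (bT (QS D G s) X)).s p := rfl

theorem raQ_raD (X : QO D) (a : (P.A.A X.i).R) (p : (P.Q X).M.V) :
    P.raQ X a p = (P.bd.ρ X).raD a p := rfl

/-- The unit over the test objects. -/
def unK : P.xq.UN (Res P.A) (barD P) (gauD (K.gs D s)) where
  u := P.bd.unB P.σ P.σ_sgD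
  act N X a z p := (P.bd.unB_act P.σ P.σ_sgD N X a z p).trans
    (congrArg ((P.bd.unB P.σ P.σ_sgD N X).f z) (P.raQ_raD X a p).symm)
  tr := P.bd.unB_tr _ _
  nat := P.bd.unB_nat _ _

/-- The unit. -/
def un : (Res P.A).z0 ⟶ (barD P).z0 ⋙ (gauD (K.gs D s)).z0 ⋙ P.xiD.z0 := P.unK.un (ptQ s K xd)

/-- The equivariant classes. -/
def bE (N : Z0 (mdc P.A)) (i : I) (k : Fin U.n) : GD.Hom ((mo ((Res P.A).z0.obj N)).M i).toGD
    ((ho ((barD P).z0.obj N)).fa.M (Zo xd i)).G := Un.zE (barD P) N i (P.ue (mo N) i k)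

theorem bE_hit (N : Z0 (mdc P.A)) (i : I) :
    Hit xd U (ho ((barD P).z0.obj N)).fa i _ (P.bE N i) :=
  Un.zE_hit (barD P) N i _ (P.hit_bar (mo N) i)

theorem bE_f (N : Z0 (mdc P.A)) (i : I) (k : Fin U.n) (x : ((mo ((Res P.A).z0.obj N)).M i).V) :
    (P.bE N i k).f x = ((P.bd.ρ (Zo xd i)).ra.flip (P.uv (Zo xd i) k)).rTensor
      (UU ((mo N).M i)).V x := P286EK.bl_f (P.uj (Zo xd i) k) ((mo N).M i) x

theorem pi_unK (N : Z0 (mdc P.A)) (i : I) (k : Fin U.n) (x : ((mo ((Res P.A).z0.obj N)).M i).V) :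
    (piZ ((barD P).z0.obj N) (Zo xd i)).f ((P.unK.u N (Zo xd i)).f x
      (P.o1 (Zo xd i) (P.uv (Zo xd i) k))) = (P.bE N i k).f x :=
  (P.bd.piZ_unB P.σ P.σ_sgD N (Zo xd i) x (P.uv (Zo xd i) k)).trans (P.bE_f N i k x).symm

/-- The unit is compatible with the evaluation at the generators. -/
theorem un_E (N : Z0 (mdc P.A)) (i : I) (k : Fin U.n) (x : ((mo ((Res P.A).z0.obj N)).M i).V) :
    (P.xE ((barD P).z0.obj N) i k).f ((mh (P.un.app N) i).f x) = (P.bE N i k).f x :=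
  (P.xE_un P.unK N i k x).trans (P.pi_unK N i k x)

end PD

end

end Vale.Agent.P286EX
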