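import Vale.Agent.P286EXU.Rey

/-!
# The equivariant classes of the bar construction
-/

set_option linter.all false

namespace Vale.Agent.P286EX

open CategoryTheory Matrix TensorProduct Vale.Agent.P286 Vale.Agent.P286.St Vale.Agent.P286.H847
  Vale.Agent.P286E Vale.Agent.P286EG Vale.Agent.P286EK Vale.Agent.P286.H710

noncomputable section

namespace Un

section Pw

variable {A : DGA} (P : RM A) (n : ℕ)

/-- A power of a right module. -/
abbrev pw : RM A where
  V := Fin n → P.V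
  d := P.d.compLeft (Fin n)
  dd x := funext fun k => P.dd (x k)
  gr m := Submodule.pi Set.univ fun _ => P.gr m
  dgr m x hx k hk := P.dgr m _ (hx k hk)
  sg := P.sg.compLeft (Fin n)
  sg_sg x := funext fun k => P.sg_sg (x k)
  sg_d x := funext fun k => P.sg_d (x k)
  sg_gr m x hx := funext fun k => P.sg_gr m _ (hx k trivial)
  ra :=
    { toFun := fun a => (P.ra a).compLeft (Fin n)
      map_add' := fun a b => LinearMap.ext fun x => funext fun k =>
        LinearMap.congr_fun (map_add P.ra a b) (x k)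
      map_smul' := fun c a => LinearMap.ext fun x => funext fun k =>
        LinearMap.congr_fun (map_smul P.ra c a) (x k) }
  ra_mul a b p := funext fun k => P.ra_mul a b (p k)
  leib a p := funext fun k => P.leib a (p k)
  sg_ra a p := funext fun k => P.sg_ra a (p k)
  ra_gr m i p a hp ha k hk := P.ra_gr m i _ a (hp k hk) ha

variable {n}

/-- The projections. -/
def prj (k : Fin n) : RH (pw P n) P :=
  ⟨⟨LinearMap.proj k, fun _ => rfl, fun _ _ h => h k trivial⟩, fun _ => rfl, fun _ _ => rfl⟩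

theorem sng_comm (f : P.V →ₗ[ℂ] P.V) (k : Fin n) (x : P.V) :
    (Pi.single k (f x) : Fin n → P.V) = f.compLeft (Fin n) (Pi.single k x) := funext fun l => by
  by_cases h : l = k
  · subst h; simp
  · simp [h]

/-- The inclusions. -/
def sng (k : Fin n) : RH P (pw P n) :=
  ⟨⟨LinearMap.single ℂ (fun _ => P.V) k, sng_comm P P.d k, fun m x h l _ => by
      by_cases e : l = k
      · subst e; simpa using h
      · simp [e]⟩, sng_comm P P.sg k, fun a => sng_comm P (P.ra a) k⟩

theorem pw_int (h : DirectSum.IsInternal P.gr) : DirectSum.IsInternal (pw P n).gr := by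
  obtain ⟨Q⟩ := Prj.nonempty (M := P.toGD) h
  refine Prj.internal (M := (pw P n).toGD) ⟨fun m => (Q.P m).compLeft (Fin n),
    fun m x k _ => Q.mem m _, fun m x hx => funext fun k => Q.eq m _ (hx k trivial),
    fun m l e x hx => funext fun k => Q.ne m l e _ (hx k trivial), eq_top_iff.2 fun x _ => ?_⟩
  rw [← Finset.univ_sum_single x]
  refine sum_mem fun k _ => ?_
  induction x k using Prj.ind Q.sup with
  | zero => rw [Pi.single_zero]; exact zero_mem _
  | hom m y hy => exact Submodule.mem_iSup_of_mem m ((sng P k).t.deg m y hy)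
  | add y z hy hz => rw [Pi.single_add]; exact add_mem hy hz

variable (N : DGM A)

theorem bl_tmul {P₁ P₂ : RM A} (t : RH P₁ P₂) (p : P₁.V) (x : (UU N).V) :
    (bl t N).f (p ⊗ₜ[ℂ] x) = (t.t.f p ⊗ₜ[ℂ] x : P₂.V ⊗[ℂ] (UU N).V) := bl_f t N _

/-- The sum of the components. -/
def col (z : Fin n → (Bar P N).V) : (Bar (pw P n) N).V := ∑ k, (bl (sng P k) N).f (z k)

theorem prj_col (z : Fin n → (Bar P N).V) (l : Fin n) :
    (bl (prj P l) N).f (col P N z) = z l := by
  have h : ∀ k, (bl (prj P l) N).f ((bl (sng P k) N).f (z k)) = if k = l then z k else 0 := by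
    intro k
    rw [bl_f, bl_f]
    by_cases e : k = l
    · subst e
      rw [if_pos rfl]
      exact (rT_rT (h := LinearMap.id) (fun x => Pi.single_eq_same (M := fun _ => P.V) k x) _).trans
        (LinearMap.congr_fun (LinearMap.rTensor_id _ _) _)
    · rw [if_neg e]
      exact (rT_rT (h := 0) (fun x => Pi.single_eq_of_ne' (M := fun _ => P.V) e x) _).trans
        (LinearMap.congr_fun (LinearMap.rTensor_zero _) _)
  rw [col, map_sum, Finset.sum_congr rfl fun k _ => h k, Finset.sum_ite_eq' Finset.univ l,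
    if_pos (Finset.mem_univ l)]

theorem col_prj (y : (Bar (pw P n) N).V) : col P N (fun k => (bl (prj P k) N).f y) = y := by
  simp only [col]
  induction y using TensorProduct.induction_on with
  | zero => simp
  | tmul p x =>
    refine (Finset.sum_congr rfl fun k _ => (congrArg _ (bl_tmul N _ _ _)).trans
      (bl_tmul N _ _ _)).trans ((sum_tmul _ _ _).symm.trans ?_)
    exact congrArg (· ⊗ₜ[ℂ] x) (Finset.univ_sum_single p)
  | add x y hx hy => simp only [map_add, Finset.sum_add_distrib, hx, hy]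

variable {P} {P' : RM A} (j : RH P' (pw P n)) (R : RH (pw P n) (pw P n))
  (hR : ∀ p, R.t.f (R.t.f p) = R.t.f p) (hj : ∀ a, R.t.f (j.t.f a) = j.t.f a)
  (hq : GD.Qis (bl (RM.lift R j hj) N))

theorem bl_comp {P₁ P₂ P₃ : RM A} (g : RH P₂ P₃) (f : RH P₁ P₂) (h : RH P₁ P₃)
    (e : ∀ p, g.t.f (f.t.f p) = h.t.f p) (z : (Bar P₁ N).V) :
    (bl g N).f ((bl f N).f z) = (bl h N).f z := by
  rw [bl_f, bl_f, bl_f]
  exact rT_rT e z

include hR hq in
theorem bar_inj {m : ℤ} {x : (Bar P' N).V} (hx : Cy _ m x)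
    (h : ∀ k, Bd _ m ((bl ((prj P k).comp j) N).f x)) : Bd _ m x := by
  have h1 : Bd _ m (col P N fun k => (bl ((prj P k).comp j) N).f x) :=
    Bd.sum _ fun k _ => (h k).map _
  have h2 : (col P N fun k => (bl ((prj P k).comp j) N).f x) = (bl j N).f x := by
    rw [← col_prj P N ((bl j N).f x)]
    exact congrArg (col P N) (funext fun k => (bl_comp N _ _ _ (fun _ => rfl) x).symm)
  rw [h2] at h1
  exact qis_inj hq hx ((h1.map (bl (RM.lift R R hR) N)).of_eq
    (bl_comp N _ _ _ (fun a => Subtype.ext (hj a)) x))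

include hR hq in
theorem bar_sur {P₁ : RM A} (q : Fin n → ((Fin n → P.V) →ₗ[ℂ] P₁.V)) (c : Fin n → Fin n → RH P₁ P)
    (hc : ∀ p l, R.t.f p l - p l = ∑ k, (c k l).t.f (q k p)) {m : ℤ} {z : Fin n → (Bar P N).V}
    (hz : ∀ k, Cy _ m (z k)) (h : ∀ k, Bd (Bar P₁ N) m ((q k).rTensor _ (col P N z))) :
    ∃ x, Cy (Bar P' N) m x ∧ ∀ k, Bd _ m (z k - (bl ((prj P k).comp j) N).f x) := by
  have h1 : Cy _ m (col P N z) := Cy.sum _ fun k _ => (hz k).map _
  obtain ⟨x, hx, hb⟩ := qis_sur hq (h1.map (bl (RM.lift R R hR) N))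
  refine ⟨x, hx, fun l => ?_⟩
  have h2 := hb.map (bl ((prj P l).comp (RM.incl R)) N)
  rw [map_sub, bl_comp N _ _ ((prj P l).comp R) (fun _ => rfl),
    bl_comp N _ _ ((prj P l).comp j) (fun _ => rfl)] at h2
  have h3 : ∀ y : (Bar (pw P n) N).V, (bl ((prj P l).comp R) N).f y - (bl (prj P l) N).f y =
      ∑ k, (bl (c k l) N).f ((q k).rTensor _ y) := by
    intro y
    induction y using TensorProduct.induction_on with
    | zero => simp
    | tmul p x =>
      refine (congrArg₂ (· - ·) (bl_tmul N _ _ _) (bl_tmul N _ _ _)).trans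
        ((sub_tmul _ _ _).symm.trans (Eq.trans ?_ ((sum_tmul _ _ _).trans
          (Finset.sum_congr rfl fun k _ => (bl_tmul N _ _ _).symm))))
      exact congrArg (· ⊗ₜ[ℂ] x) (hc p l)
    | add x y hx hy =>
      simp only [map_add, Finset.sum_add_distrib, ← hx, ← hy]
      abel
  have h4 := (Bd.sum Finset.univ fun k _ => (h k).map (bl (c k l) N)).of_eq (h3 _).symm
  rw [prj_col] at h4
  exact (h2.sub h4).of_eq (by abel)

end Pw

end Un

open Un

variable {I : Type} [SmallCategory I] {D : CD I} {G : Grp} {s : ℂ} {K : GK G} {xd : XD D}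
  {U : Rep K} (P : PD K xd s U)

namespace PD

/-- The generator over `X`, as a right module. -/
abbrev urm (X : QO D) : RM (P.A.A X.i) := (P.rho X).rm

theorem sg_uv (X : QO D) (k : Fin U.n) : P.sg X (P.uv X k) = P.uv X k := by
  rw [P.sg_gr X 0 _ (P.uv_gr X k)]
  simp

/-- The map `a ↦ v_k a`. -/
def uj (X : QO D) (k : Fin U.n) : RH (P.A.A X.i).rm (P.urm X) where
  t :=
    { f := (P.rho X).ra.flip (P.uv X k)
      comm := fun a => by
        have h := P.ra_d X a (P.uv X k)
        rw [P.d_uv, map_zero, zero_add, P.sg_uv] at h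
        exact h.symm
      deg := fun m a ha => by
        have h := P.ra_gr X 0 m _ a (P.uv_gr X k) ha
        rwa [zero_add] at h }
  sg a := by
    have h := (P.rho X).sg_ra a (P.uv X k)
    rw [P.rho_sg X (P.uv X k), P.sg_uv] at h
    exact h.symm
  ra a b := P.ra_mul X b a _

theorem uj_apply (X : QO D) (k : Fin U.n) (a : (P.A.A X.i).R) :
    (P.uj X k).t.f a = P.ra X a (P.uv X k) := rfl

/-- The map `a ↦ (v_k a)_k`. -/
def ujj (X : QO D) : RH (P.A.A X.i).rm (pw (P.urm X) U.n) where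
  t :=
    { f := LinearMap.pi fun k => (P.uj X k).t.f
      comm := fun a => funext fun k => (P.uj X k).t.comm a
      deg := fun m a ha k _ => (P.uj X k).t.deg m a ha }
  sg a := funext fun k => (P.uj X k).sg a
  ra a b := funext fun k => (P.uj X k).ra a b

/-- The map `x ↦ ∫ b x`. -/
def uc (X : QO D) (b : RQ G s (cop K X)) : RH (A := P.A.A X.i) (P.urm (cop K X)) (P.urm X) where
  t := (P.hs X).comp (⟨(LinearMap.lsmul _ _ b).restrictScalars ℂ,
    fun x => (P.ud_smul _ b x).symm, fun _ _ h => P.ugr_smul _ b h⟩ :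
      GD.Hom (P.P.K (cop K X)).M (P.P.K (cop K X)).M)
  sg p := ((P.rho (cop K X)).sg_zero (P.rho X)
    ((P.hs X).f.comp ((LinearMap.lsmul _ _ b).restrictScalars ℂ))
    (fun m x h => (P.hs X).deg m _ (P.ugr_smul _ b h)) p).symm
  ra a p := (congrArg (P.hs X).f (map_smul (P.ra (cop K X) a) b p).symm).trans (P.hs_ra X a _)

theorem uc_apply (X : QO D) (b : RQ G s (cop K X)) (x : P.uV (cop K X)) :
    (P.uc X b).t.f x = (P.hs X).f (b • x) := rfl

theorem rey_eq (i : I) (p : Fin U.n → P.uV (Zo xd i)) (l : Fin U.n) : P.rey i p l =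
    ∑ k, (P.uc _ (ri U (inr K xd s (Zo xd i)) k l)).t.f ((P.P.t (inr K xd s (Zo xd i))).f (p k)) :=
  map_sum (P.hs (Zo xd i)).f _ _

/-- The Reynolds projector. -/
def uR (i : I) : RH (pw (P.urm (Zo xd i)) U.n) (pw (P.urm (Zo xd i)) U.n) where
  t :=
    { f := LinearMap.pi fun l => ∑ k, (P.uc _ (ri U (inr K xd s (Zo xd i)) k l)).t.f ∘ₗ
        (P.P.t (inr K xd s (Zo xd i))).f ∘ₗ LinearMap.proj k
      comm := fun p => funext fun l => by
        simp only [LinearMap.pi_apply, LinearMap.compLeft_apply, Function.comp_apply,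
          LinearMap.sum_apply, LinearMap.comp_apply, LinearMap.proj_apply, map_sum]
        exact Finset.sum_congr rfl fun k _ =>
          (congrArg _ (P.ut_d _ _)).trans ((P.uc _ _).t.comm _)
      deg := fun m p hp l _ => by
        simp only [LinearMap.pi_apply, LinearMap.sum_apply]
        exact sum_mem fun k _ => (P.uc _ _).t.deg m _ ((P.P.t _).deg m _ (hp k trivial)) }
  sg p := funext fun l => by
    simp only [LinearMap.pi_apply, LinearMap.compLeft_apply, Function.comp_apply,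
      LinearMap.sum_apply, LinearMap.comp_apply, LinearMap.proj_apply, map_sum]
    exact Finset.sum_congr rfl fun k _ =>
      (congrArg _ (P.bd.t_sg (inr K xd s (Zo xd i)) _)).trans ((P.uc _ _).sg _)
  ra a p := funext fun l => by
    simp only [LinearMap.pi_apply, LinearMap.compLeft_apply, Function.comp_apply,
      LinearMap.sum_apply, LinearMap.comp_apply, LinearMap.proj_apply, map_sum, LinearMap.coe_mk,
      AddHom.coe_mk]
    exact Finset.sum_congr rfl fun k _ =>
      (congrArg _ (P.inr_ra (Zo xd i) a _)).trans ((P.uc _ _).ra a _)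

theorem uR_apply (i : I) (p : Fin U.n → P.uV (Zo xd i)) : (P.uR i).t.f p = P.rey i p :=
  funext fun l => (LinearMap.sum_apply _ _ _).trans (P.rey_eq i p l).symm

theorem uR_uR (i : I) (p : Fin U.n → P.uV (Zo xd i)) :
    (P.uR i).t.f ((P.uR i).t.f p) = (P.uR i).t.f p := by
  rw [uR_apply, uR_apply, P.rey_of i _ (P.eqv_rey i p)]

theorem uR_ujj (i : I) (a : (P.A.A i).R) :
    (P.uR i).t.f ((P.ujj (Zo xd i)).t.f a) = (P.ujj (Zo xd i)).t.f a :=
  (P.uR_apply i _).trans (P.rey_of i _ (P.eqv_uv i a))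

theorem qis_ujj (i : I) : GD.Qis (RM.lift (P.uR i) (P.ujj (Zo xd i)) (P.uR_ujj i)).t := by
  have hf : ∀ x : (RM.img (P.uR i)).V, ∀ k, eqv xd U P.P.fa i x.1 k = 0 := fun x k => by
    rw [← Img.fix x, uR_apply]
    exact P.eqv_rey i _ k
  refine qis_mk (fun m a ha ⟨p, hp, e⟩ => P.un_inj i m a ha p.1 (fun k => hp k trivial) (hf p)
    fun k => congrFun (congrArg Subtype.val e) k) fun m p hp => ?_
  obtain ⟨a, ha, q, hq, h0, e⟩ := P.un_sur i m p.1
    (fun k => ⟨hp.1 k trivial, congrFun (congrArg Subtype.val hp.2) k⟩) (hf p)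
  exact ⟨a, ha, ⟨q, (P.uR_apply i q).trans (P.rey_of i q h0)⟩, fun k _ => hq k,
    Subtype.ext (funext e)⟩

/-- The equivariance condition, as a linear map. -/
def uq (i : I) (k : Fin U.n) : (Fin U.n → P.uV (Zo xd i)) →ₗ[ℂ] P.uV (cop K (Zo xd i)) :=
  (P.P.t (inr K xd s (Zo xd i))).f ∘ₗ LinearMap.proj k - ∑ l,
    (LinearMap.lsmul _ _ (rr U (inr K xd s (Zo xd i)) l k)).restrictScalars ℂ ∘ₗ
      (P.P.t (inl K s (Zo xd i))).f ∘ₗ LinearMap.proj l

theorem uq_apply (i : I) (k : Fin U.n) (p : Fin U.n → P.uV (Zo xd i)) :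
    P.uq i k p = eqv xd U P.P.fa i p k :=
  congrArg ((P.P.t (inr K xd s (Zo xd i))).f (p k) - ·) (LinearMap.sum_apply _ _ _)

variable (N : DM P.A)

/-- The maps `a ⊗ w ↦ v_k a ⊗ w`. -/
def ue (i : I) (k : Fin U.n) :
    GD.Hom (Bar (P.A.A i).rm (N.M i)) (((barD P).obj N).fa.M (Zo xd i)).G :=
  bl (P.uj (Zo xd i) k) (N.M i)

theorem ue_tmul (i : I) (k : Fin U.n) (a : (P.A.A i).R) (w : (UU (N.M i)).V) :
    (P.ue N i k).f (a ⊗ₜ[ℂ] w) =
      (P.ra (Zo xd i) a (P.uv _ k) ⊗ₜ[ℂ] w : P.uV (Zo xd i) ⊗[ℂ] (UU (N.M i)).V) :=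
  bl_f (P.uj (Zo xd i) k) (N.M i) _

theorem eqv_bar (i : I) (y : (Bar (pw (P.urm (Zo xd i)) U.n) (N.M i)).V) (k : Fin U.n) :
    eqv xd U ((barD P).obj N).fa i (fun l => (bl (prj (P.urm (Zo xd i)) l) (N.M i)).f y) k =
      (P.uq i k).rTensor (UU (N.M i)).V y := by
  have e : ∀ y : (Bar (pw (P.urm (Zo xd i)) U.n) (N.M i)).V,
      eqv xd U ((barD P).obj N).fa i (fun l => (bl (prj (P.urm (Zo xd i)) l) (N.M i)).f y) k =
      (P.bd.bt N (inr K xd s (Zo xd i))).f ((bl (prj (P.urm (Zo xd i)) k) (N.M i)).f y) -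
        ∑ l, rr U (inr K xd s (Zo xd i)) l k • (P.bd.bt N (inl K s (Zo xd i))).f
          ((bl (prj (P.urm (Zo xd i)) l) (N.M i)).f y) := fun _ => rfl
  rw [e]
  induction y using TensorProduct.induction_on with
  | zero => simp only [map_zero, smul_zero, Finset.sum_const_zero, sub_zero]; rfl
  | tmul p x =>
    have h : ∀ (u : Ar G s (Zo xd i) (cop K (Zo xd i))) (hu : QM.α u = 𝟙 i) l,
        (P.bd.bt N u).f ((bl (prj (P.urm (Zo xd i)) l) (N.M i)).f (p ⊗ₜ[ℂ] x)) =
          ((P.P.t u).f (p l) ⊗ₜ[ℂ] x : P.uV (cop K (Zo xd i)) ⊗[ℂ] (UU (N.M i)).V) := by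
      intro u hu l
      refine (congrArg (P.bd.bt N u).f (bl_f _ _ _)).trans ((P.bd.bt_tmul N u (p l) x).trans ?_)
      exact congrArg ((P.P.t u).f (p l) ⊗ₜ[ℂ] ·)
        ((congrArg (fun α : i ⟶ i => BD.ut N α x) hu).trans
          (LinearMap.congr_fun (BD.ut_id N i) x))
    rw [LinearMap.rTensor_tmul, uq_apply, eqv_eq, sub_tmul, sum_tmul]
    exact congrArg₂ (· - ·) (h _ rfl k)
      (Finset.sum_congr rfl fun l _ => (congrArg _ (h _ rfl l)).trans (smul_tmul' _ _ _))
  | add x y hx hy =>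
    simp only [map_add, smul_add, Finset.sum_add_distrib, ← hx, ← hy]
    abel

/-- **The equivariant classes of the bar construction.** -/
theorem hit_bar (i : I) :
    Hit xd U ((barD P).obj N).fa i (Bar (P.A.A i).rm (N.M i)) (P.ue N i) := by
  have hq : GD.Qis (bl (RM.lift (P.uR i) (P.ujj (Zo xd i)) (P.uR_ujj i)) (N.M i)) :=
    qis_bl _ _ (P.A.A i).int (Img.internal (P.uR_uR i) (pw_int _ (P.int _))) (P.qis_ujj i)
  refine ⟨fun m x hx => ⟨fun k => hx.map _, fun k => (Bd.zero _ m).of_eq ?_⟩,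
    fun m x hx h => bar_inj (N.M i) _ _ (P.uR_uR i) _ hq hx h, fun m z hz => ?_⟩
  · have h1 := P.eqv_bar N i ((bl (P.ujj (Zo xd i)) (N.M i)).f x) k
    have h2 : (P.uq i k).rTensor (UU (N.M i)).V ((bl (P.ujj (Zo xd i)) (N.M i)).f x) = 0 :=
      (congrArg _ (bl_f _ _ _)).trans ((rT_rT (h := 0)
        (fun a => (P.uq_apply i k _).trans (P.eqv_uv i a k)) x).trans
          (LinearMap.congr_fun (LinearMap.rTensor_zero _) x))
    exact ((congrArg (fun z => eqv xd U ((barD P).obj N).fa i z k) (funext fun l =>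
      (bl_comp (N.M i) _ _ _ (fun _ => rfl) x).symm)).trans (h1.trans h2)).symm
  · refine bar_sur (N.M i) _ _ (P.uR_uR i) _ hq (P.uq i)
      (fun k l => P.uc _ (ri U (inr K xd s (Zo xd i)) k l)) (fun p l => ?_) hz.1 fun k => ?_
    · refine (congrArg (fun t => t l - p l) (P.uR_apply i p)).trans ((P.rey_sub i p l).trans ?_)
      exact Finset.sum_congr rfl fun k _ => congrArg (fun t => (P.hs _).f (_ • t))
        (P.uq_apply i k p).symm
    · exact (hz.2 k).of_eq ((congrArg (fun z => eqv xd U ((barD P).obj N).fa i z k)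
        (funext fun l => (prj_col _ (N.M i) z l).symm)).trans (P.eqv_bar N i _ k))

end PD

end

end Vale.Agent.P286EX
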