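import Vale.Agent.P286EXI.Tm

/-!
# Maps to the total given by compatible maps to the levels
-/

set_option linter.all false

namespace Vale.Agent.P286EX

open CategoryTheory Vale.Agent.P286.H847 Vale.Agent.P286.H353 Vale.Agent.P286.H761
  Vale.Agent.P286EK

noncomputable section

variable {I : Type} [SmallCategory I] {C : Type 1} [Category.{0} C] {DA : DD I} {ix : C ⥤ I}

/-- A compatible family of maps from the pull back of `L` to `M`. -/
structure AgM (ix : C ⥤ I) (L : DM DA) (M : DM (pull DA ix)) : Type 1 where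
  u : ∀ X, GD.Hom (L.M (ix.obj X)).toGD (M.M X).toGD
  act : ∀ X a x, (u X).f ((L.M (ix.obj X)).act a x) = (M.M X).act a ((u X).f x)
  tr : ∀ {X Y : C} (φ : X ⟶ Y) x, (u Y).f ((L.ρ (ix.map φ)).f x) = (M.ρ φ).f ((u X).f x)

namespace AgM

variable {L L' : DM DA} {M M' : DM (pull DA ix)} (f : AgM ix L M) (pt : PT ix)

theorem tr_a {i : I} {X Y : C} (a : i ⟶ ix.obj X) (φ : X ⟶ Y) {b : i ⟶ ix.obj Y}
    (h : a ≫ ix.map φ = b) (x : (L.M i).V) :
    (M.ρ φ).f ((f.u X).f ((L.ρ a).f x)) = (f.u Y).f ((L.ρ b).f x) := by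
  rw [← f.tr, ← L.ρ_comp, h]

/-- The augmentation. -/
def ag (i : I) : CS.Aug (pt.cs M i) (L.M i).toGD where
  e := (f.u ((pt.P i).P 0)).comp (L.ρ (pt.a i 0))
  eq x := (f.tr_a _ _ (pt.a_fc i 0 0) x).trans (f.tr_a _ _ (pt.a_fc i 0 1) x).symm

theorem ag_zero (i : I) (x : (L.M i).V) :
    ((f.ag pt i).tot.f x : (pt.cs M i).Tot.V) 0 = (f.u _).f ((L.ρ (pt.a i 0)).f x) :=
  (f.ag pt i).tot_zero x

theorem ag_succ (i : I) (x : (L.M i).V) (k : ℕ) :
    ((f.ag pt i).tot.f x : (pt.cs M i).Tot.V) (k + 1) = 0 := (f.ag pt i).tot_succ x k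

theorem ag_act (i : I) (a : (DA.A i).R) (x : (L.M i).V) :
    (f.ag pt i).tot.f ((L.M i).act a x) = (pt.totG M i).act a ((f.ag pt i).tot.f x) :=
  funext fun k => by
    rw [PT.totG_act]
    cases k with
    | zero =>
      rw [ag_zero, ag_zero, L.ρ_act, f.act, PT.el_apply, Nat.cast_zero, DGA.sz_zero]
    | succ k => rw [ag_succ, ag_succ, map_zero]

theorem ag_tr {i j : I} (α : i ⟶ j) (x : (L.M i).V) :
    (f.ag pt j).tot.f ((L.ρ α).f x) = ((pt.totM M).ρ α).f ((f.ag pt i).tot.f x) :=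
  funext fun k => by
    refine Eq.trans ?_ (pt.totM_ρ M α _ k).symm
    cases k with
    | zero => rw [ag_zero, ag_zero, f.tr_a _ _ (pt.a_m α 0), L.ρ_comp]
    | succ k => rw [ag_succ, ag_succ, map_zero]

/-- The closed morphism to the total. -/
def mor : zo (C := mdc DA) L ⟶ zo (C := mdc DA) (pt.totM M) :=
  mmk (F := L) (F' := pt.totM M) (fun i => (f.ag pt i).tot) (f.ag_act pt) (f.ag_tr pt)

theorem mh_mor (i : I) : mh (f.mor pt) i = (f.ag pt i).tot := rfl

theorem ag_nat (g : AgM ix L' M') (a : ∀ i, (L.M i).V → (L'.M i).V)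
    (ha : ∀ {i j : I} (α : i ⟶ j) x, a j ((L.ρ α).f x) = (L'.ρ α).f (a i x))
    (z : DM.Coch M M' 0) (h : ∀ X x, (g.u X).f (a _ x) = z.f X ((f.u X).f x)) (i : I)
    (x : (L.M i).V) :
    (g.ag pt i).tot.f (a i x) = (pt.totC 0 z).f i ((f.ag pt i).tot.f x) := funext fun k => by
  refine Eq.trans ?_ (pt.totC_zero z i _ k).symm
  cases k with
  | zero => rw [ag_zero, ag_zero, ← h, ha]
  | succ k => rw [ag_succ, ag_succ, map_zero]

end AgM

end

end Vale.Agent.P286EX
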