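import Vale.Agent.P286EXU.Hb
import Vale.Agent.P286EXB.Dr

/-!
# The unit over a test object
-/

set_option linter.all false

namespace Vale.Agent.P286EX

open CategoryTheory TensorProduct Vale.Agent.P286 Vale.Agent.P286.St Vale.Agent.P286.H847
  Vale.Agent.P286.H847.SGD Vale.Agent.P286.H353 Vale.Agent.P286.H710 Vale.Agent.P286.H697
open Vale.Agent.P286EK (DGA NHom AHom RM DD DM mdc mqis mh mo Bar UU bm bh bD RHom ssz)

noncomputable section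

universe u v

theorem Un.ssz_S (A : DGA) (n : ℤ) (a : A.R) : ssz A.S n a = A.sz n a := by
  by_cases h : Even n
  · rw [A.sz_even h, P286EK.ssz_even h]
  · rw [A.sz_odd h, P286EK.ssz_odd h]; rfl

namespace RA

variable {R : Type} [CommRing R] [Algebra ℂ R] {K : DGM R} {A : DGA} (ρ : RA K A) (b : DB ℂ R)
  (N : P286EK.DGM A)

/-- The map `q ↦ (a ⊗ w ↦ q a ⊗ w)`. -/
def un0 (q : DR ℂ R K.M.V) : A.R ⊗[ℂ] (UU N).V →ₗ[ℂ] DR ℂ R (K.M.V ⊗[ℂ] (UU N).V) :=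
  ascC R K.M.V (UU N).V ∘ₗ (ρ.raD.flip q).rTensor (UU N).V

theorem un0_add (q q' : DR ℂ R K.M.V) (z : A.R ⊗[ℂ] (UU N).V) :
    ρ.un0 N (q + q') z = ρ.un0 N q z + ρ.un0 N q' z := by
  rw [un0, map_add, LinearMap.rTensor_add, LinearMap.comp_add, LinearMap.add_apply]
  rfl

theorem un0_smul (w : Om ℂ R) (q : DR ℂ R K.M.V) (z : A.R ⊗[ℂ] (UU N).V) :
    ρ.un0 N (w • q) z = w • ρ.un0 N q z :=
  (congrArg (asc R K.M.V (UU N).V) (P286EK.rT_rT (f := ρ.raD.flip q) (g := muE K.M.V w)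
    (h := ρ.raD.flip (w • q)) (fun a => (ρ.raD_smul a w q).symm) z).symm).trans (asc_muE w _)

/-- The map `a ⊗ w ↦ (q ↦ q a ⊗ w)`. -/
def unL : A.R ⊗[ℂ] (UU N).V →ₗ[ℂ]
    (DR ℂ R K.M.V →ₗ[Om ℂ R] DR ℂ R (K.M.V ⊗[ℂ] (UU N).V)) where
  toFun z :=
    { toFun := fun q => ρ.un0 N q z
      map_add' := fun q q' => ρ.un0_add N q q' z
      map_smul' := fun w q => ρ.un0_smul N w q z }
  map_add' z z' := LinearMap.ext fun q => map_add (ρ.un0 N q) z z'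
  map_smul' c z := LinearMap.ext fun q => map_smul (ρ.un0 N q) c z

theorem unL_apply (z : A.R ⊗[ℂ] (UU N).V) (q : DR ℂ R K.M.V) :
    ρ.unL N z q = asc R K.M.V (UU N).V ((ρ.raD.flip q).rTensor _ z) := rfl

theorem unL_tmul (a : A.R) (x : (UU N).V) (q : DR ℂ R K.M.V) :
    ρ.unL N (a ⊗ₜ[ℂ] x) q = asc R K.M.V (UU N).V (ρ.raD a q ⊗ₜ[ℂ] x) := rfl

theorem unL_act (a : A.R) (z : A.R ⊗[ℂ] (UU N).V) (q : DR ℂ R K.M.V) :
    ρ.unL N ((LinearMap.mul ℂ A.R a).rTensor _ z) q = ρ.unL N z (ρ.raD a q) :=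
  congrArg (asc R K.M.V (UU N).V) (P286EK.rT_rT (f := LinearMap.mul ℂ A.R a) (g := ρ.raD.flip q)
    (h := ρ.raD.flip (ρ.raD a q)) (fun a' => ρ.raD_mul a a' q) z)

theorem out_unL (z : A.R ⊗[ℂ] (UU N).V) (p : K.M.V) :
    H389.outM R _ (ρ.unL N z ((1 : Om ℂ R) ⊗ₜ[R] p)) = (ρ.ra.flip p).rTensor _ z := by
  induction z using TensorProduct.induction_on with
  | zero => simp only [map_zero, LinearMap.zero_apply]
  | tmul a x => exact outM_one _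
  | add x y hx hy => simp only [map_add, LinearMap.add_apply, hx, hy]

/-- The unit over one algebra. -/
def unH (σ : Sg (drO b K)) (hσ : ∀ q, σ.s q = (ρ.sgD b).s q) :
    GD.Hom (Bar A.rm N) (Hm σ (drO b (ρ.barK N))) where
  f := ρ.unL N
  comm z := LinearMap.ext fun q => by
    have h := P286EK.bD_rT (P := A.rm) (P' := ρ.dr b) (N := N) (f := ρ.raD.flip (σ.s q))
      (g := ρ.raD.flip q) (f' := ρ.raD.flip (K.D b (σ.s q)))
      (fun a => (ρ.sg_raD b a _).trans (congrArg _ ((hσ _).symm.trans (σ.s_s q))))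
      (fun a a' => ρ.raD_mul a' a q)
      (fun a => eq_sub_of_add_eq ((congrArg (fun t => _ + ρ.raD (A.d a) t)
        ((hσ _).symm.trans (σ.s_s q)).symm).trans (ρ.raD_leib b a _).symm)) z
    have h2 := (ρ.asc_D b N _).symm.trans ((congrArg _ h).trans (map_add _ _ _))
    exact (eq_sub_of_add_eq' h2.symm :)
  deg m z hz k q hq := ρ.asc_mem b N (m := k + m)
    (map_tgr (E := A.G) (F := UU N) (E' := DGM.DRg b K) (F' := UU N) ((ρ.raD.flip q).rTensor _)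
      (fun i j a x h ha hx => tmul_mem (E := DGM.DRg b K) (i := k + i) (j := j) (by omega)
        (ρ.raD_gr k i q a hq ha) hx) hz)

theorem unH_f (σ : Sg (drO b K)) (hσ : ∀ q, σ.s q = (ρ.sgD b).s q) (z : A.R ⊗[ℂ] (UU N).V) :
    (ρ.unH b N σ hσ).f z = ρ.unL N z := rfl

end RA

variable {T : TSite} {S : GS T} {I : Type u} [Category.{v} I]

namespace BD

variable {ix : T.C ⥤ I} {A : DD I} (B : BD S ix A) (N : DM A) {X Y : T.C}

theorem gt_unL (φ : X ⟶ Y) (z : (A.A (ix.obj X)).R ⊗[ℂ] (UU (N.M (ix.obj X))).V) (q : B.P.V X) :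
    (B.barH N).gt φ ((B.ρ X).unL (N.M (ix.obj X)) z q) = (B.ρ Y).unL (N.M (ix.obj Y))
      (TensorProduct.map (A.τ (ix.map φ)).n.f (ut N (ix.map φ)) z) (B.P.gt φ q) :=
  LinearMap.congr_fun (f := (B.barH N).gt φ ∘ₗ (B.ρ X).un0 (N.M (ix.obj X)) q)
    (g := (B.ρ Y).un0 (N.M (ix.obj Y)) (B.P.gt φ q) ∘ₗ
      TensorProduct.map (A.τ (ix.map φ)).n.f (ut N (ix.map φ)))
    (TensorProduct.ext' fun a x => (B.as_gt N φ _ x).trans
      (congrArg (fun t => B.as N Y (t ⊗ₜ[ℂ] ut N (ix.map φ) x)) (B.gt_raD φ a q))) z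

variable {N} {N' : DM A}

theorem gauC_unL {n : ℤ} (u : DM.Coch N N' n)
    (z : (A.A (ix.obj X)).R ⊗[ℂ] (UU (N.M (ix.obj X))).V) (q : B.P.V X) :
    (HG.gauC (B.bcL N N' n u)).1 X ((B.ρ X).unL (N.M (ix.obj X)) z q) =
      (B.ρ X).unL (N'.M (ix.obj X)) (TensorProduct.map (ssz (A.A (ix.obj X)).S n)
        (uc u (ix.obj X)) z) (ssz ((B.ρ X).dr (bT T X)).toSGD n q) :=
  LinearMap.congr_fun (f := (HG.gauC (B.bcL N N' n u)).1 X ∘ₗ (B.ρ X).un0 (N.M (ix.obj X)) q)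
    (g := (B.ρ X).un0 (N'.M (ix.obj X)) (ssz ((B.ρ X).dr (bT T X)).toSGD n q) ∘ₗ
      TensorProduct.map (ssz (A.A (ix.obj X)).S n) (uc u (ix.obj X)))
    (TensorProduct.ext' fun a x => (B.as_bc u _ x).trans
      (congrArg (fun t => B.as N' X (t ⊗ₜ[ℂ] uc u (ix.obj X) x))
        ((((B.ρ X).dr (bT T X)).ssz_ra n a q).trans
          (congrArg (fun t => (B.ρ X).raD t _) (Un.ssz_S _ n a).symm)))) z

end BD

end

end Vale.Agent.P286EX
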