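import Vale.Agent.P286EXI.Hx
import Vale.Agent.P286EXU.Up
import Vale.Agent.P286EXU.Ag
import Vale.Agent.P286EX3.Pi

/-!
# The unit for an abstract free family
-/

set_option linter.all false

namespace Vale.Agent.P286EX

open CategoryTheory TensorProduct Vale.Agent.P286 Vale.Agent.P286.St Vale.Agent.P286.H847
  Vale.Agent.P286.H353 Vale.Agent.P286.H710 Vale.Agent.P286.H697 Vale.Agent.P286.H761
open Vale.Agent.P286EK (DGA DD DM mdc mh mo mz Bar UU DHom Res mnat ssz mh_tr)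

noncomputable section

universe u₁ v₁ u₂ v₂

variable {T : TSite} {S : GS T} {I : Type} [SmallCategory I] {ix : T.C ⥤ I} {A : DD I}

namespace QX

variable (q : QX ix A) (pt : PT ix) {C : DGC.{u₁, v₁}} {E : DGC.{u₂, v₂}}

/-- Pairings with the free family which are balanced and natural. -/
structure UN (L : DGF C (mdc A)) (b : DGF C E) (g : DGF E (otc T)) where
  u : ∀ (N : Z0 C) X, GD.Hom ((mo (L.z0.obj N)).M (ix.obj X)).toGD (q.Φ (g.z0.obj (b.z0.obj N)) X)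
  act : ∀ N X a z p, (u N X).f (((mo (L.z0.obj N)).M (ix.obj X)).act a z) p =
    (u N X).f z (q.ra X a p)
  tr : ∀ N {X Y : T.C} (φ : X ⟶ Y) z p,
    (u N Y).f (((mo (L.z0.obj N)).ρ (ix.map φ)).f z) (q.Q.t φ p) =
      OT.t (g.z0.obj (b.z0.obj N)) φ ((u N X).f z p)
  nat : ∀ ⦃N N' : Z0 C⦄ (a : N ⟶ N') X z p, (u N' X).f ((mh (L.z0.map a) (ix.obj X)).f z) p =
    ((otF T).hom (g.z0.map (b.z0.map a)) X).f ((u N X).f z p)

variable {q} {L : DGF C (mdc A)} {b : DGF C E} {g : DGF E (otc T)} (f : q.UN L b g)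

/-- The compatible maps to the levels. -/
def UN.ag (N : Z0 C) : AgM ix (mo (L.z0.obj N)) (q.hmM (g.z0.obj (b.z0.obj N))) where
  u := f.u N
  act X a z := LinearMap.ext (f.act N X a z)
  tr φ z := q.ext_eq φ fun p => (f.tr N φ z p).trans (q.ext_t _ φ _ p).symm

/-- The natural transformation to the total. -/
def UN.un : L.z0 ⟶ b.z0 ⋙ g.z0 ⋙ (q.xiD pt).z0 :=
  mnat (fun N => (f.ag N).mor pt) fun N N' a i x =>
    (f.ag N).ag_nat pt (f.ag N') (fun i => (mh (L.z0.map a) i).f) (fun α => mh_tr (L.z0.map a) α)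
      (mz (q.hmD.z0.map (g.z0.map (b.z0.map a))))
      (fun X z => (LinearMap.ext (f.nat a X z)).trans (q.hmD_map _ X _).symm) i x

theorem UN.un_zero (N : Z0 C) (i : I) (x : ((mo (L.z0.obj N)).M i).V) :
    ((mh ((f.un pt).app N) i).f x : (q.cs pt (g.z0.obj (b.z0.obj N)) i).Tot.V) 0 =
      (f.u N _).f (((mo (L.z0.obj N)).ρ (pt.a i 0)).f x) := (f.ag N).ag_zero pt i x

theorem UN.un_succ (N : Z0 C) (i : I) (x : ((mo (L.z0.obj N)).M i).V) (k : ℕ) :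
    ((mh ((f.un pt).app N) i).f x : (q.cs pt (g.z0.obj (b.z0.obj N)) i).Tot.V) (k + 1) = 0 :=
  (f.ag N).ag_succ pt i x k

end QX

theorem Un.rs_ρ (N : DM A) {i j : I} (α : i ⟶ j) (z : (A.A i).R ⊗[ℂ] (UU (N.M i)).V) :
    (((DHom.id A).bm.th N).ρ α).f z = TensorProduct.map (A.τ α).n.f (BD.ut N α) z :=
  congrArg (fun t => TensorProduct.map t (BD.ut N α) z)
    (LinearMap.ext fun p => congrArg (A.τ α).n.f (P286EK.ssz_zero (E := (A.A i).S) p))

namespace BD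

variable (B : BD S ix A) (σ : ∀ X, Sg (B.P.gau.F X))
  (hσ : ∀ X p, (σ X).s p = ((B.ρ X).sgD (bT T X)).s p) (N : Z0 (mdc A))

/-- The unit over a test object. -/
def unB (X : T.C) : GD.Hom ((mo ((Res A).z0.obj N)).M (ix.obj X)).toGD
    (Hm (σ X) (OT.F ((gauD S).z0.obj (B.barD.z0.obj N)) X)) :=
  (B.ρ X).unH (bT T X) ((mo N).M (ix.obj X)) (σ X) (hσ X)

theorem unB_f (X : T.C) (z : ((mo ((Res A).z0.obj N)).M (ix.obj X)).V) (p : (B.P.gau.F X).M.V) :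
    (B.unB σ hσ N X).f z p = (B.ρ X).unL ((mo N).M (ix.obj X)) z p := rfl

theorem unB_act (X : T.C) (a : (A.A (ix.obj X)).R) (z : ((mo ((Res A).z0.obj N)).M (ix.obj X)).V)
    (p : (B.P.gau.F X).M.V) :
    (B.unB σ hσ N X).f (((mo ((Res A).z0.obj N)).M (ix.obj X)).act a z) p =
      (B.unB σ hσ N X).f z ((B.ρ X).raD a p) := (B.ρ X).unL_act _ a z p

theorem unB_tr {X Y : T.C} (φ : X ⟶ Y) (z : ((mo ((Res A).z0.obj N)).M (ix.obj X)).V)
    (p : (B.P.gau.F X).M.V) :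
    (B.unB σ hσ N Y).f (((mo ((Res A).z0.obj N)).ρ (ix.map φ)).f z) (B.P.gau.t φ p) =
      OT.t ((gauD S).z0.obj (B.barD.z0.obj N)) φ ((B.unB σ hσ N X).f z p) :=
  (congrArg (fun t => (B.ρ Y).unL ((mo N).M (ix.obj Y)) t (B.P.gt φ p))
    (Un.rs_ρ (mo N) (ix.map φ) z)).trans (B.gt_unL (mo N) φ z p).symm

theorem unB_nat ⦃N N' : Z0 (mdc A)⦄ (a : N ⟶ N') (X : T.C)
    (z : ((mo ((Res A).z0.obj N)).M (ix.obj X)).V) (p : (B.P.gau.F X).M.V) :
    (B.unB σ hσ N' X).f ((mh ((Res A).z0.map a) (ix.obj X)).f z) p =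
      ((otF T).hom ((gauD S).z0.map (B.barD.z0.map a)) X).f ((B.unB σ hσ N X).f z p) :=
  ((B.gauC_unL (mz a) z p).trans (congrArg ((B.ρ X).unL ((mo N').M (ix.obj X)) _)
    (P286EK.ssz_zero _))).symm

theorem pi_unB (X : T.C) (z : ((mo ((Res A).z0.obj N)).M (ix.obj X)).V) (p : (B.P.K X).M.V) :
    (HG.pi (B.barD.z0.obj N) X).f ((B.unB σ hσ N X).f z ((1 : Om ℂ (T.R X)) ⊗ₜ[T.R X] p)) =
      ((B.ρ X).ra.flip p).rTensor (UU ((mo N).M (ix.obj X))).V z := (B.ρ X).out_unL _ z p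

end BD

end

end Vale.Agent.P286EX
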